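import Vale.Agent.Boolean.Granular

/-!
For a `±1`-valued function of degree at most `d ≥ 1`, the absolute level-one sum
`a = ∑ |f̂({i})|` satisfies `(1 + (d-1)/2^(d-1)) a ≤ d`.
-/

namespace Vale.Agent.Results.P047.LevelOneGranular

open Vale.Agent.BooleanCube Finset

/-- The main theorem. -/
theorem result (n d : ℕ) (hd : 1 ≤ d) (f : (Fin n → Bool) → ℝ) (hf : IsBoolean f)
    (hdeg : ∀ S : Finset (Fin n), d < S.card → coeff f S = 0) :
    (1 + ((d : ℝ) - 1) / 2 ^ (d - 1)) * ∑ i, |coeff f {i}| ≤ d := by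
  set W : ℝ := ∑ i : Fin n, coeff f {i} ^ 2 with hW
  set a : ℝ := ∑ i : Fin n, |coeff f {i}| with ha
  have hd1 : (0:ℝ) ≤ (d : ℝ) - 1 := by
    have : (1:ℝ) ≤ d := by exact_mod_cast hd
    linarith
  -- step 1: a ≤ total influence
  have h1 : a ≤ ∑ i, influence f i :=
    Finset.sum_le_sum (fun i _ => abs_coeff_singleton_le hf i)
  -- step 2: total influence ≤ d - (d-1) W
  have h2 : ∑ i, influence f i ≤ d - ((d : ℝ) - 1) * W := by
    rw [sum_influence]
    have hpars := isBoolean_parseval hf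
    have h3 : ∑ S : Finset (Fin n), (S.card : ℝ) * coeff f S ^ 2
        = d * ∑ S : Finset (Fin n), coeff f S ^ 2
          + ∑ S : Finset (Fin n), ((S.card : ℝ) - d) * coeff f S ^ 2 := by
      rw [Finset.mul_sum, ← Finset.sum_add_distrib]
      apply Finset.sum_congr rfl; intro S _; ring
    rw [h3, hpars, mul_one]
    have hnpos : ∀ S : Finset (Fin n), ((S.card : ℝ) - d) * coeff f S ^ 2 ≤ 0 := by
      intro S
      by_cases hS : d < S.card
      · rw [hdeg S hS]; simp
      · have : (S.card : ℝ) ≤ d := by exact_mod_cast Nat.le_of_not_lt hS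
        apply mul_nonpos_of_nonpos_of_nonneg (by linarith) (sq_nonneg _)
    set A : Finset (Finset (Fin n)) := Finset.univ.image (fun i : Fin n => ({i} : Finset (Fin n)))
      with hA
    have hsplit : ∑ S : Finset (Fin n), ((S.card : ℝ) - d) * coeff f S ^ 2
        = ∑ S ∈ (Finset.univ \ A), ((S.card : ℝ) - d) * coeff f S ^ 2
          + ∑ S ∈ A, ((S.card : ℝ) - d) * coeff f S ^ 2 :=
      (Finset.sum_sdiff (Finset.subset_univ A)).symm
    have hrest : ∑ S ∈ (Finset.univ \ A), ((S.card : ℝ) - d) * coeff f S ^ 2 ≤ 0 :=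
      Finset.sum_nonpos (fun S _ => hnpos S)
    have hsing : ∑ S ∈ A, ((S.card : ℝ) - d) * coeff f S ^ 2 = - (((d : ℝ) - 1) * W) := by
      rw [hA, Finset.sum_image (fun i _ j _ h => Finset.singleton_injective h), hW,
        Finset.mul_sum, ← Finset.sum_neg_distrib]
      apply Finset.sum_congr rfl; intro i _
      simp only [Finset.card_singleton, Nat.cast_one]
      ring
    linarith
  -- step 3: granularity gives W ≥ a / 2^(d-1)
  have h4 : a / 2 ^ (d - 1) ≤ W := by
    rw [ha, Finset.sum_div, hW]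
    apply Finset.sum_le_sum
    intro i _
    obtain ⟨k, hk⟩ := granular_boolean hf hd hdeg (Finset.singleton_nonempty i)
    have hpow : (0:ℝ) < 2 ^ (d - 1) := by positivity
    by_cases hk0 : k = 0
    · have hc : coeff f {i} = 0 := by
        have : (2:ℝ) ^ (d - 1) * coeff f {i} = 0 := by rw [hk, hk0]; simp
        rcases mul_eq_zero.mp this with h | h
        · exact absurd h hpow.ne'
        · exact h
      rw [hc]; simp
    · have habs : (1:ℝ) ≤ |(k:ℝ)| := by
        have : (1:ℤ) ≤ |k| := Int.one_le_abs hk0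
        exact_mod_cast this
      have h5 : (1:ℝ) ≤ 2 ^ (d - 1) * |coeff f {i}| := by
        have : |(2:ℝ) ^ (d - 1) * coeff f {i}| = 2 ^ (d - 1) * |coeff f {i}| := by
          rw [abs_mul, abs_of_pos hpow]
        rw [← this, hk]; exact habs
      have h6 : 1 / (2:ℝ) ^ (d - 1) ≤ |coeff f {i}| := by
        rw [div_le_iff₀ hpow]; linarith
      have h7 : coeff f {i} ^ 2 = |coeff f {i}| * |coeff f {i}| := by
        rw [abs_mul_abs_self]; ring
      rw [h7, div_eq_mul_one_div]
      apply mul_le_mul_of_nonneg_left h6 (abs_nonneg _)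
  have h8 : ((d : ℝ) - 1) * (a / 2 ^ (d - 1)) ≤ ((d : ℝ) - 1) * W :=
    mul_le_mul_of_nonneg_left h4 hd1
  have h9 : (1 + ((d : ℝ) - 1) / 2 ^ (d - 1)) * a = a + ((d : ℝ) - 1) * (a / 2 ^ (d - 1)) := by
    ring
  rw [h9]
  linarith

end Vale.Agent.Results.P047.LevelOneGranular
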